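import Vale.Agent.P022D.Top.Main
import Vale.Agent.P022D.Fm.Forms
import Vale.Agent.P022E.Top.Main
import Vale.Agent.P022E.Top.Fin
import Vale.Agent.P022E.As.L2
import Vale.Agent.P022E.GW.All
import Vale.Agent.P022E.Fm.Forms
import Vale.Agent.P022G.Final
import Vale.Agent.P022S.FinH12
import Vale.Agent.P022S.ExTwoH1
import Vale.Agent.P022T.TateH92
import Vale.Agent.P022U.FinH12

/-!
P022, Question 1. Let `E` be a finite extension of `ℚ₂` and `r : Gal(ℚ̄/ℚ) → GL₂(E)` continuous,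
odd, absolutely irreducible and ramified at finitely many primes. Then `r` has a residual
representation `ρ`; and if the image of `ρ` is solvable, or `ρ` is modular in the level of Serre,
or `ρ` has an open kernel, is unramified outside `2 q` with `q = 3`, `5` or `7`, and `ρ(s)² = 1` on
the inertia groups at `q`, then `r` occurs in the 2-adic Hecke algebra of an odd level `N` whose
prime divisors are primes at which `r` ramifies. The conclusion holds for all such `r` if the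
residue field of `E` is `𝔽₂`, and if `r` is unramified at all odd primes.
-/

open Vale.Agent.P022

namespace Vale.Agent.Results.P022.ResidualCases

theorem result (E : Type) [NontriviallyNormedField E] [NormedAlgebra ℚ_[2] E]
    [FiniteDimensional ℚ_[2] E]
    (r : (AlgebraicClosure ℚ ≃ₐ[ℚ] AlgebraicClosure ℚ) →* GL (Fin 2) E)
    (hc : Continuous r) (ho : St.OddRep r) (hi : St.AbsIrr r)
    (hS : {p : ℕ | p.Prime ∧ ¬ St.UnrAt r p}.Finite) :
    (∃ (k : Type) (_ : Field k) (_ : CharP k 2) (_ : Finite k)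
      (ρ : (AlgebraicClosure ℚ ≃ₐ[ℚ] AlgebraicClosure ℚ) →* GL (Fin 2) k), St.IsRes r ρ) ∧
    (∀ (k : Type) [Field k] [CharP k 2]
      (ρ : (AlgebraicClosure ℚ ≃ₐ[ℚ] AlgebraicClosure ℚ) →* GL (Fin 2) k), St.IsRes r ρ →
      Group.IsSolvable ρ.range ∨ St.Serre ρ ∨
        (∃ q : ℕ, (q = 3 ∨ q = 5 ∨ q = 7) ∧ IsOpen {g | ρ g = 1} ∧
          (∀ p : ℕ, p.Prime → p ≠ 2 → p ≠ q → St.UnrAt ρ p) ∧
          ∀ P : Ideal (NumberField.RingOfIntegers (AlgebraicClosure ℚ)), P.IsPrime →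
            (q : NumberField.RingOfIntegers (AlgebraicClosure ℚ)) ∈ P →
            ∀ s : AlgebraicClosure ℚ ≃ₐ[ℚ] AlgebraicClosure ℚ,
              (∀ x : NumberField.RingOfIntegers (AlgebraicClosure ℚ), s • x - x ∈ P) →
              ρ s * ρ s = 1) → St.Q1Concl r) ∧
    ((∀ x : E, ‖x‖ ≤ 1 → ‖x‖ < 1 ∨ ‖x - 1‖ < 1) → St.Q1Concl r) ∧
    ((∀ p : ℕ, p.Prime → p ≠ 2 → St.UnrAt r p) → St.Q1Concl r) := by
  suffices main : ∀ (k : Type) [Field k] [CharP k 2]
      (ρ : (AlgebraicClosure ℚ ≃ₐ[ℚ] AlgebraicClosure ℚ) →* GL (Fin 2) k), St.IsRes r ρ →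
      Group.IsSolvable ρ.range ∨ St.Serre ρ → St.Q1Concl r by
    refine ⟨Vale.Agent.P022S.H1.exRes E r hc, fun k _ _ ρ hr h => main k ρ hr ?_, fun h2 => ?_,
      fun h1 => ?_⟩
    · rcases h with h | h | ⟨q, hq, h1, h2, h3⟩
      · exact Or.inl h
      · exact Or.inr h
      · exact Or.inl (Vale.Agent.P022U.H12.lv7 hq k ρ h1 h2 h3)
    · obtain ⟨k, _, _, _, ρ, hr, hs⟩ := Vale.Agent.P022S.H1.exTwo E r hc h2
      exact main k ρ hr (Or.inl hs)
    · obtain ⟨k, _, _, _, ρ, hr, hs⟩ :=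
        Vale.Agent.P022T.exOne Vale.Agent.P022T.H92.tate E r hc h1
      exact main k ρ hr (Or.inl hs)
  intro k _ _ ρ hr h
  by_cases h1 : St.IrrCyc ρ
  · by_cases hs : Group.IsSolvable ρ.range
    · exact Vale.Agent.P022D.Top.final (Vale.Agent.P022D.Top.main Vale.Agent.P022D.Fm.formsC)
        E r hc ho hS k ρ hr hs h1
    · exact Vale.Agent.P022E.Top.finalN (Vale.Agent.P022E.Top.coreC
        (Vale.Agent.P022E.As.l2 Vale.Agent.P022E.GW.selC) Vale.Agent.P022E.Fm.formsC)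
        E r hc ho hS k ρ hr hs (h.resolve_left hs)
  · by_cases ht : ∃ g, (ρ g : Matrix (Fin 2) (Fin 2) k).trace ≠ 0
    · exact Vale.Agent.P022G.finalG E r hc ho hi hS k ρ hr h1 ht
    · exact Vale.Agent.P022S.H12.finalS E r hc ho hi hS k ρ hr
        fun g => not_not.1 fun h0 => ht ⟨g, h0⟩

end Vale.Agent.Results.P022.ResidualCases
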