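import Vale.Agent.P022D.Top.Main
import Vale.Agent.P022D.Fm.Forms0
import Vale.Agent.P022D.Fm.NmH
import Vale.Agent.P022D.Fm.NmW
import Vale.Agent.P022D.Fm.NmH66

/-!
P022, Question 1 for residually dihedral representations. Let `E` be a finite extension of `ℚ₂`
and `r : Gal(ℚ̄/ℚ) → GL₂(E)` continuous, odd and ramified at finitely many primes. If a residual
representation `ρ` of `r` has solvable image and is absolutely irreducible on the group of
`ℚ(ζ₈)`, then `r` occurs in the 2-adic Hecke algebra of an odd level `N` whose prime divisors are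
primes at which `r` ramifies.
-/

open Vale.Agent.P022 Vale.Agent.P022D

namespace Vale.Agent.Results.P022.ResiduallyDihedral

theorem result (E : Type) [NontriviallyNormedField E] [NormedAlgebra ℚ_[2] E]
    [FiniteDimensional ℚ_[2] E]
    (r : (AlgebraicClosure ℚ ≃ₐ[ℚ] AlgebraicClosure ℚ) →* GL (Fin 2) E)
    (hc : Continuous r) (ho : St.OddRep r) (hS : {p : ℕ | p.Prime ∧ ¬ St.UnrAt r p}.Finite)
    (k : Type) [Field k] [CharP k 2]
    (ρ : (AlgebraicClosure ℚ ≃ₐ[ℚ] AlgebraicClosure ℚ) →* GL (Fin 2) k)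
    (hr : St.IsRes r ρ) (hs : Group.IsSolvable ρ.range) (hi : St.IrrCyc ρ) : St.Q1Concl r :=
  Top.final (Top.main (Fm.forms_nz fun _ _ _ _ _ _ _ _ _ _ _ _ hU =>
    Fm.H66.nz0_of hU (Fm.lqC hU) (Fm.Nm.hign hU (Fm.Nm.whp hU)))) E r hc ho hS k ρ hr hs hi

end Vale.Agent.Results.P022.ResiduallyDihedral
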