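import Vale.Agent.P022D.Top.Main
import Vale.Agent.P022D.Fm.Forms
import Vale.Agent.P022E.Top.Main
import Vale.Agent.P022E.Top.Fin
import Vale.Agent.P022E.As.L2
import Vale.Agent.P022E.GW.All
import Vale.Agent.P022E.Fm.Forms

/-!
P022, Question 1 for residually irreducible representations. Let `E` be a finite extension of `ℚ₂`
and `r : Gal(ℚ̄/ℚ) → GL₂(E)` continuous, odd and ramified at finitely many primes, with a residual
representation `ρ`. If the image of `ρ` is solvable assume that `ρ` is absolutely irreducible on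
the group of `ℚ(ζ₈)`; if it is not solvable assume that `ρ` is modular in the level of Serre. Then
`r` occurs in the 2-adic Hecke algebra of an odd level `N` whose prime divisors are primes at which
`r` ramifies.
-/

open Vale.Agent.P022

namespace Vale.Agent.Results.P022.ResiduallyIrreducible

theorem result (E : Type) [NontriviallyNormedField E] [NormedAlgebra ℚ_[2] E]
    [FiniteDimensional ℚ_[2] E]
    (r : (AlgebraicClosure ℚ ≃ₐ[ℚ] AlgebraicClosure ℚ) →* GL (Fin 2) E)
    (hc : Continuous r) (ho : St.OddRep r) (hS : {p : ℕ | p.Prime ∧ ¬ St.UnrAt r p}.Finite)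
    (k : Type) [Field k] [CharP k 2]
    (ρ : (AlgebraicClosure ℚ ≃ₐ[ℚ] AlgebraicClosure ℚ) →* GL (Fin 2) k)
    (hr : St.IsRes r ρ) (h₁ : Group.IsSolvable ρ.range → St.IrrCyc ρ)
    (h₂ : ¬ Group.IsSolvable ρ.range → St.Serre ρ) : St.Q1Concl r := by
  by_cases hs : Group.IsSolvable ρ.range
  · exact Vale.Agent.P022D.Top.final (Vale.Agent.P022D.Top.main Vale.Agent.P022D.Fm.formsC)
      E r hc ho hS k ρ hr hs (h₁ hs)
  · exact Vale.Agent.P022E.Top.finalN (Vale.Agent.P022E.Top.coreC
      (Vale.Agent.P022E.As.l2 Vale.Agent.P022E.GW.selC) Vale.Agent.P022E.Fm.formsC)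
      E r hc ho hS k ρ hr hs (h₂ hs)

end Vale.Agent.Results.P022.ResiduallyIrreducible
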