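import Vale.Agent.P022D.Top.Main
import Vale.Agent.P022D.Fm.Forms
import Vale.Agent.P022E.Top.Main
import Vale.Agent.P022E.Top.Fin
import Vale.Agent.P022E.As.L2
import Vale.Agent.P022E.GW.All
import Vale.Agent.P022E.Fm.Forms
import Vale.Agent.P022F.A.All

/-!
P022, Question 1. Let `E` be a finite extension of `ℚ₂` and `r : Gal(ℚ̄/ℚ) → GL₂(E)` continuous,
odd, absolutely irreducible and ramified at finitely many primes, with a residual representation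
`ρ`. Assume one of: (a) the image of `ρ` is solvable and `ρ` is absolutely irreducible on the group
of `ℚ(ζ₈)`; (b) the image is not solvable and `ρ` is modular in the level of Serre; (c) the
semisimplification of `ρ` is `χ₁ ⊕ χ₂` with `χ₁ ≠ χ₂`, also on a decomposition group at every odd
prime where `r` ramifies, and the characters `χ₁ / χ₂`, `χ₂ / χ₁` are unobstructed. Then `r` occurs
in the 2-adic Hecke algebra of an odd level `N` whose prime divisors are primes at which `r`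
ramifies.
-/

open Vale.Agent.P022

namespace Vale.Agent.Results.P022.ResiduallyReducible

theorem result (E : Type) [NontriviallyNormedField E] [NormedAlgebra ℚ_[2] E]
    [FiniteDimensional ℚ_[2] E]
    (r : (AlgebraicClosure ℚ ≃ₐ[ℚ] AlgebraicClosure ℚ) →* GL (Fin 2) E)
    (hc : Continuous r) (ho : St.OddRep r) (hi : St.AbsIrr r)
    (hS : {p : ℕ | p.Prime ∧ ¬ St.UnrAt r p}.Finite)
    (k : Type) [Field k] [CharP k 2]
    (ρ : (AlgebraicClosure ℚ ≃ₐ[ℚ] AlgebraicClosure ℚ) →* GL (Fin 2) k)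
    (hr : St.IsRes r ρ)
    (h : (Group.IsSolvable ρ.range ∧ St.IrrCyc ρ) ∨ (¬ Group.IsSolvable ρ.range ∧ St.Serre ρ) ∨
      ∃ χ₁ χ₂ : (AlgebraicClosure ℚ ≃ₐ[ℚ] AlgebraicClosure ℚ) →* kˣ, χ₁ ≠ χ₂ ∧
        (∀ g, (ρ g : Matrix (Fin 2) (Fin 2) k).trace = (χ₁ g : k) + (χ₂ g : k) ∧
          (ρ g : Matrix (Fin 2) (Fin 2) k).det = (χ₁ g : k) * (χ₂ g : k)) ∧
        (∀ p : ℕ, p.Prime → p ≠ 2 → ¬ St.UnrAt r p → ∃ g, St.IsDec p g ∧ χ₁ g ≠ χ₂ g) ∧
        St.Unob r (χ₁ * χ₂⁻¹) ∧ St.Unob r (χ₂ * χ₁⁻¹)) : St.Q1Concl r := by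
  rcases h with ⟨hs, h₁⟩ | ⟨hs, h₂⟩ | ⟨χ₁, χ₂, hne, ht, hd, h₃, h₄⟩
  · exact Vale.Agent.P022D.Top.final (Vale.Agent.P022D.Top.main Vale.Agent.P022D.Fm.formsC)
      E r hc ho hS k ρ hr hs h₁
  · exact Vale.Agent.P022E.Top.finalN (Vale.Agent.P022E.Top.coreC
      (Vale.Agent.P022E.As.l2 Vale.Agent.P022E.GW.selC) Vale.Agent.P022E.Fm.formsC)
      E r hc ho hS k ρ hr hs h₂
  · obtain ⟨O, π, hO, hr⟩ := hr
    refine Vale.Agent.P022F.Top.allA E r hc ho hi hS k χ₁ χ₂ ⟨O, π, hO, fun g => ?_⟩ hne hd h₃ h₄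
    obtain ⟨t, d, a₁, a₂, a₃, a₄⟩ := hr g
    exact ⟨t, d, a₁, a₂, a₃.trans (ht g).1, a₄.trans (ht g).2⟩

end Vale.Agent.Results.P022.ResiduallyReducible
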